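import Vale.Agent.P207.N5.H547.LqN0

/-! `lqr`, `lq_Na`, `lq_N0` are in `LqN0`. -/
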